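import Vale.Agent.P088.R2.H850.Fin3
import Vale.Agent.P088.R2.H338.T.K
import Vale.Agent.P088.R2.H404.P5f
import Vale.Agent.P088.R2.H238.S3.P3
import Vale.Agent.P088.R2.H238.S3.Norm
import Vale.Agent.P088.R2.H437.P2
import Vale.Agent.P088.R2.H901.Inv
import Vale.Agent.P088.R2.H901.Inp
import Vale.Agent.P088.R2.H349.Hyp
import Vale.Agent.P088.R2.H673.P4.PM
import Vale.Agent.P088.R2.H269.X.X15
import Vale.Agent.P088.R2.H437.EXTrow
import Vale.Agent.P088.R2.H455.S4.EstV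

/-!
# P088, stage 3: the closed rows
-/

open Bundle Manifold MeasureTheory Set Filter Topology
open scoped ContDiff

noncomputable section

set_option linter.all false

namespace Vale.Agent.P088.R2.H455.S3

open Vale.Agent.P088 Vale.Agent.P088.EYM
open Vale.Agent.P088.B Vale.Agent.P088.B2

universe u

/-- The local theorem for two metrics from the weight and the quasimode. -/
theorem core3_of (hS : HY.T4.RowSOLW) (h4 : HY.T4.RowP4) : HY.T3.RowCORE3 :=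
  R2.H238.S3.Nm.rowNORM (HY.T4.core3n HY.rowINV HY.rowINP hS
    (R2.H238.S3.P3.rowP3 (HY.H437.Kel.rowP2 HY.rowHYP)) h4)

/-- The local theorem for two metrics from the a priori estimate. -/
theorem core3_est (hE : R2.H269.RowEST) : HY.T3.RowCORE3 :=
  core3_of (R2.H269.rowSOLW HY.rowHYP HY.H437.Kel.rowEXT hE)
    (HY.S3.rowP4 HY.rowINV (HY.H437.Kel.rowP2 HY.rowHYP))

/-- The local theorem for two metrics from the a priori estimate with gains. -/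
theorem core3_estg (hE : S4.RowESTg) : HY.T3.RowCORE3 := core3_est (S4.rowEST_of hE)

/-- **The final theorem of stage 3** from the local theorem. -/
theorem stage3 (hC : HY.T3.RowCORE3) (n : ℕ) [NeZero n] (hn : 3 ≤ n)
    (M₁ M₂ : Type u)
    [TopologicalSpace M₁] [ChartedSpace (EuclideanHalfSpace n) M₁] [IsManifold (𝓡∂ n) ∞ M₁]
    [T2Space M₁] [CompactSpace M₁] [ConnectedSpace M₁]
    [TopologicalSpace M₂] [ChartedSpace (EuclideanHalfSpace n) M₂] [IsManifold (𝓡∂ n) ∞ M₂]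
    [T2Space M₂] [CompactSpace M₂] [ConnectedSpace M₂]
    (Z₁ : At n M₁) (hZ₁ : Z₁ = at_ n M₁) (Z₂ : At n M₂) (hZ₂ : Z₂ = at_ n M₂)
    (Γ₁ O₁ : Set M₁) (hO₁ : IsOpen O₁) (hΓ₁ : Γ₁ = O₁ ∩ bd Z₁)
    (Γ₂ O₂ : Set M₂) (hO₂ : IsOpen O₂) (hΓ₂ : Γ₂ = O₂ ∩ bd Z₂) (hne₂ : Γ₂.Nonempty) (ψ : M₂ → M₁)
    (hψ : Iden 1 Z₁ Z₂ Γ₁ Γ₂ ψ) (P : B.Pair Z₁ 1) (Q : B.Pair Z₂ 1)
    (hP : ∀ x i, P.A x i = 0) (hQ : ∀ x i, Q.A x i = 0)
    (hdata : SameData₂ Γ₁ Γ₂ ψ P Q) : UniqueRel₂ Γ₁ Γ₂ ψ P Q :=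
  R2.H850.cal_two hC R2.H338.T3.rowST3I hn Z₁ hZ₁ Z₂ hZ₂ Γ₁ O₁ hO₁ hΓ₁ Γ₂ O₂ hO₂ hΓ₂
    hne₂ ψ hψ P Q hP hQ hdata

end Vale.Agent.P088.R2.H455.S3
end
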